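import Vale.Agent.P299.H723.D.Stmt

/-!
# From the core statement to the index statement
-/

open scoped Manifold ContDiff ComplexOrder Topology
open Vale.Agent.P272.K Vale.Agent.P299.D

noncomputable section

namespace Vale.Agent.P299.IX

/-- the last step: one `p` for infinitely many `m` -/
theorem exists_p {Q : ℕ → ℕ → Prop} {n : ℕ} (h : ∀ m₀, ∃ p ≤ n, ∃ m, m₀ ≤ m ∧ Q p m) :
    ∃ p, ∀ m₀, ∃ m, m₀ ≤ m ∧ Q p m := by
  by_contra hcon
  push Not at hcon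
  choose M hM using hcon
  obtain ⟨p, hp, m, hm, hQ⟩ := h ((Finset.range (n + 1)).sup M)
  refine hM p m ((Finset.le_sup (f := M) (Finset.mem_range.2 (Nat.lt_succ_of_le hp))).trans hm) hQ

/-- the index statement, one manifold and one torus action, for the multiples of `K0` -/
def CoreStatement : Prop :=
  ∀ (n : ℕ) (Z : Type) [TopologicalSpace Z] [T2Space Z] [CompactSpace Z] [ConnectedSpace Z]
    [ChartedSpace (Cm n) Z] [IsManifold 𝓘(ℂ, Cm n) ω Z] (w : FormM n Z),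
    IsKahler w → RicNonneg w →
    (∀ p : ℕ, 1 ≤ p → ∀ s : Ten n p Z, IsTen p 0 s → ∀ e z I, At e z → s e (e z) I = 0) →
    ∀ (r : ℕ) (T : TorusAct r n Z w), ∃ K0 N : ℕ, 1 ≤ K0 ∧ ∀ c : ℕ, ∃ j, 1 ≤ j ∧ j ≤ N ∧
      ∃ p ≤ n, ∃ s : Ten n p Z, IsTen p (1 + j * (c * K0)) s ∧ TenNZ s ∧
        ∀ t, TenInv (1 + j * (c * K0)) (T.a t) s

theorem index_of_core (h : CoreStatement) : IndexStatement := by
  intro n Z _ _ _ _ _ _ w hw hric hten r T
  obtain ⟨K0, N, hK0, hc⟩ := h n Z w hw hric hten r T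
  refine exists_p (n := n) fun m₀ => ?_
  obtain ⟨j, hj, -, p, hp, s, hs⟩ := hc m₀
  refine ⟨p, hp, 1 + j * (m₀ * K0), ?_, s, hs⟩
  have h1 : m₀ * 1 ≤ m₀ * K0 := Nat.mul_le_mul_left _ hK0
  have h2 : 1 * (m₀ * K0) ≤ j * (m₀ * K0) := Nat.mul_le_mul_right _ hj
  omega

end Vale.Agent.P299.IX
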