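import Vale.Agent.P299.H598.IX.Fin.Eq
import Vale.Agent.P299.H598.IX.Fin.Pigeon
import Vale.Agent.P299.H835.IX.DDFp
import Vale.Agent.P299.H721.Low
import Vale.Agent.P299.H582.Kir.Main

/-!
# The dimensions of the kernels of the total operator on invariant sections
-/

open scoped Manifold ContDiff ComplexOrder Topology Matrix ComplexConjugate
open MeasureTheory Set Filter Module
open Vale.Agent.P272.K Vale.Agent.P272.K.INT Vale.Agent.P299.H863
open Vale.Agent.P299.H800.Kir Vale.Agent.P299.H582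

noncomputable section

namespace Vale.Agent.P299.IX

open Kz

section
variable {r n : ℕ} {Z : Type} [TopologicalSpace Z] [ChartedSpace (Cm n) Z]
  [IsManifold 𝓘(ℂ, Cm n) ω Z] [T2Space Z] [CompactSpace Z] {w : D.FormM n Z}

/-- **The kernels of `D' + δ` on the even and on the odd invariant sections of the total bundle
have the same dimension.** -/
theorem exists_finrank_eq (hw : IsKahler w) (hric : D.RicNonneg w) (T : D.TorusAct r n Z w) :
    ∃ K0 N : ℕ, 1 ≤ K0 ∧ ∀ c : ℕ,
      finrank ℂ (kerP (DDF hw (c * K0) N).op (PT T hw (c * K0) N 1)) =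
        finrank ℂ (kerP (DDF hw (c * K0) N).op (PT T hw (c * K0) N (-1))) := by
  obtain ⟨f, K0, N, hK0, hf, hfT, hs⟩ := kirwan hw.toIsHermitian T
  refine ⟨K0, N, hK0, fun c => ?_⟩
  obtain ⟨s, hs, hkir⟩ := hs c
  obtain ⟨a, ha, t0, ht0, hlow⟩ := H721.index_lower (hw := hw) (T := T) hric hs hf
    (fun e x hx => by
      rcases hkir e x hx with h | h | ⟨h1, h2, h3, -, h5⟩
      · exact Or.inl h
      · exact Or.inr (Or.inl h)
      · exact Or.inr (Or.inr ⟨h1, h2, h3, h5⟩)) (Dt := (DDF hw (c * K0) N).op)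
    (fun s e x hx => DDF_at s hx)
  have hinv : ∀ u : (Btot hw (c * K0) N).S, (∀ t, (Ltot T hw (c * K0) N).pb t u = u) →
      H721.TInv T (c * K0) u.f := by
    intro u hu S t e e' x hx hx'
    have h1 := isPull_blk T hw t u S e e' x hx hx'
    rwa [hu t] at h1
  refine finrank_eq_of hric (oProj_PT T hw (by norm_num) (by simp))
    (oProj_PT T hw (by norm_num) (by simp)) (DDF_PT T hw 1)
    (BZ hw (H721.ksec hs) (fun a e x hx => hf a e x hx) (H721.sfield T)) (BZ_symm hw _ _ _)
    (BZ_PT hw _ _ _ (fun j => hs j) hfT (fun a => vInv_vf T _) 1)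
    ⟨a, ha, t0, ht0, fun u hu => hlow t0 le_rfl u (hinv u ?_)⟩
  rcases hu with hu | hu
  · exact ((PT_fix_iff T hw (by norm_num) u).1 hu).1
  · exact ((PT_fix_iff T hw (by norm_num) u).1 hu).1

end

end Vale.Agent.P299.IX
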