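import Vale.Agent.P299.H598.IX.DDF
import Vale.Agent.P299.H863.Hh

/-!
# The index theorem for the total operator
-/

open scoped Manifold ContDiff ComplexOrder Topology Matrix ComplexConjugate
open MeasureTheory Set Filter Module
open Vale.Agent.P272.K Vale.Agent.P272.K.INT Vale.Agent.P299.H863

noncomputable section

namespace Vale.Agent.P299.IX

open Kz

variable {n : ℕ} {Z : Type*} [TopologicalSpace Z] [ChartedSpace (Cm n) Z]
  [IsManifold 𝓘(ℂ, Cm n) ω Z] [T2Space Z] [CompactSpace Z] {w : D.FormM n Z}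
  {hw : IsKahler w} {k0 N : ℕ}

/-- **The index argument.** `D' + δ` has kernels of the same dimension on the images of two
projections exchanged by `D' + δ` and by a symmetric `K` which makes it injective there. -/
theorem finrank_eq_of (hric : D.RicNonneg w)
    {P1 P2 : (Btot hw k0 N).S →ₗ[ℂ] (Btot hw k0 N).S} (h1 : OProj ℂ P1) (h2 : OProj ℂ P2)
    (hD : ∀ u, (DDF hw k0 N).op (P1 u) = P2 ((DDF hw k0 N).op u))
    (K : ZOp (Btot hw k0 N)) (hKs : ∀ u v, inner ℂ (K.op u) v = inner ℂ u (K.op v))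
    (hK : ∀ u, K.op (P1 u) = P2 (K.op u))
    (hlow : ∃ c > 0, ∃ t > (0 : ℝ), ∀ u, P1 u = u ∨ P2 u = u →
      c * t * ‖u‖ ^ 2 ≤ ‖(DDF hw k0 N).op u + (t : ℂ) • K.op u‖ ^ 2) :
    finrank ℂ (kerP (DDF hw k0 N).op P1) = finrank ℂ (kerP (DDF hw k0 N).op P2) := by
  obtain ⟨c, hc, t, ht, hlow⟩ := hlow
  obtain ⟨C, hC0, hC⟩ := K.bounded
  refine (LocSp.index_symm (Btot hw k0 N).locSp (DDF hw k0 N).locOp DDF_symm h1 h2 hD ?_
    ((t : ℂ) • K.op) ⟨t * C, fun u => ?_⟩ (fun u v => ?_) (fun u => ?_)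
    (m := Real.sqrt (c * t)) (Real.sqrt_pos.2 (mul_pos hc ht)) fun u hu => ?_).2.2
  · intro i ψ hψ j
    obtain ⟨C', hC'⟩ := hH_of_bkn (B := Btot hw k0 N) hw.toIsHermitian (DDF hw k0 N).op
      isDensity_gden (intX_gden_le hric) i ψ hψ j
    exact ⟨C', fun s _ => hC' s⟩
  · rw [LinearMap.smul_apply, norm_smul, Complex.norm_real, Real.norm_of_nonneg ht.le, mul_assoc]
    exact mul_le_mul_of_nonneg_left (hC u) ht.le
  · rw [LinearMap.smul_apply, LinearMap.smul_apply, inner_smul_left, inner_smul_right, hKs,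
      Complex.conj_ofReal]
  · rw [LinearMap.smul_apply, LinearMap.smul_apply, hK, map_smul]
  · rw [LinearMap.smul_apply]
    have h3 := Real.sqrt_le_sqrt (hlow u hu)
    rwa [Real.sqrt_mul (mul_pos hc ht).le, Real.sqrt_sq (norm_nonneg _),
      Real.sqrt_sq (norm_nonneg _)] at h3

end Vale.Agent.P299.IX
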