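import Vale.Agent.P299.H598.IX.Fin.Core
import Vale.Agent.P299.H863.End

/-!
# The index theorem
-/

open scoped Manifold ContDiff ComplexOrder Topology Matrix ComplexConjugate Kronecker
open MeasureTheory Set Filter Module
open Vale.Agent.P272.K Vale.Agent.P272.K.INT Vale.Agent.P299.H863

noncomputable section

namespace Vale.Agent.P299.IX

open Kz

theorem coreStatement : CoreStatement := by
  intro n Z _ _ _ _ _ _ w hw hric hten r T
  obtain ⟨K0, N, hK0, h⟩ := exists_finrank_eq hw hric T
  refine ⟨K0, N, hK0, fun c => ?_⟩
  refine end_of hric hten T (DDF hw (c * K0) N).op (fun s e x hx S => blk_DDF_at s S hx)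
    (PZ hw (c * K0) N).op (fun s e x hx => ZOp.op_at _ s hx)
    (P1 := PT T hw (c * K0) N 1) (P2 := PT T hw (c * K0) N (-1)) (fun u => ?_) (fun u => ?_) (h c)
  · have h1 := PT_fix_iff T hw (c := 1) (by norm_num) u
    rwa [one_smul] at h1
  · have h1 := PT_fix_iff T hw (c := -1) (by norm_num) u
    rwa [neg_one_smul] at h1

/-- **The index theorem.** -/
theorem indexStatement : D.IndexStatement := index_of_core coreStatement

end Vale.Agent.P299.IX
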